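import Mathlib.RingTheory.MvPolynomial.Homogeneous
import Mathlib.RingTheory.Regular.RegularSequence
import Mathlib.RingTheory.Ideal.KrullsHeightTheorem
import Mathlib.RingTheory.Polynomial.Basic
import Mathlib.LinearAlgebra.FiniteDimensional.Lemmas
import Mathlib.LinearAlgebra.Dimension.StrongRankCondition
import Mathlib.Analysis.SpecialFunctions.Sqrt
import Mathlib.Data.Sym.Card

/-!
Growth from degree two to degree three for ideals containing a regular sequence of
`n` quadrics in `n` variables.
-/

namespace Vale.Agent.P200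

open MvPolynomial Module

lemma le_height_of_forall_mem {R : Type*} [CommRing R] {n : ℕ} {f : Fin n → R}
    (hreg : RingTheory.Sequence.IsWeaklyRegular R (List.ofFn f)) :
    ∀ i, i ≤ n → ∀ P : Ideal R, P.IsPrime → (∀ j : Fin n, (j : ℕ) < i → f j ∈ P) →
      (i : ℕ∞) ≤ P.height := by
  intro i
  induction i with
  | zero => intro _ P _ _; simp
  | succ i ih =>
    intro hi P hP hmem
    have hlen : i < (List.ofFn f).length := by simp; omega
    have hr := hreg.regular_mod_prev i hlen
    set I := Ideal.ofList ((List.ofFn f).take i)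
    have hIeq : (I • ⊤ : Submodule R R) = I := by rw [smul_eq_mul, Ideal.mul_top]
    have hget : (List.ofFn f)[i] = f ⟨i, by omega⟩ := by simp
    rw [hget] at hr
    have hIP : I ≤ P := by
      refine Ideal.span_le.2 fun x hx => ?_
      obtain ⟨k, hk, rfl⟩ := List.mem_take_iff_getElem.1 hx
      simp only [List.getElem_ofFn]
      exact hmem _ (by simp at hk ⊢; omega)
    obtain ⟨q, hq, hqP⟩ := Ideal.exists_minimalPrimes_le hIP
    haveI := hq.1.1
    have hqi : f ⟨i, by omega⟩ ∉ q := by
      intro hx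
      obtain ⟨y, hy, hxy⟩ := Ideal.exists_mul_mem_of_mem_minimalPrimes hq hx
      refine hy (hIeq ▸ (Submodule.Quotient.mk_eq_zero _).1 (hr.right_eq_zero_of_smul ?_))
      rw [← Submodule.Quotient.mk_smul, Submodule.Quotient.mk_eq_zero, hIeq]
      exact hxy
    have hlt : q < P := lt_of_le_of_ne hqP fun e => hqi (e ▸ hmem _ (Nat.lt_succ_self i))
    have hq' : (i : ℕ∞) ≤ q.height := ih (by omega) q inferInstance fun j hj => by
      refine hq.1.2 (Ideal.subset_span ?_)
      refine List.mem_take_iff_getElem.2 ⟨j, by simp; omega, by simp⟩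
    calc ((i + 1 : ℕ) : ℕ∞) = (i : ℕ∞) + 1 := by push_cast; rfl
      _ ≤ q.height + 1 := by gcongr
      _ ≤ P.height := Ideal.height_add_one_le_of_lt_of_isPrime hlt

lemma le_card_of_mem_span {R : Type*} [CommRing R] [IsNoetherianRing R] {n : ℕ} {f : Fin n → R}
    (hreg : RingTheory.Sequence.IsWeaklyRegular R (List.ofFn f)) (s : Set R) (hs : s.Finite)
    (hne : Ideal.span s ≠ ⊤) (hf : ∀ i, f i ∈ Ideal.span s) : n ≤ s.ncard := by
  obtain ⟨P, hP⟩ := Ideal.nonempty_minimalPrimes hne
  haveI := hP.1.1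
  have h := (le_height_of_forall_mem hreg n le_rfl P inferInstance
    fun j _ => hP.1.2 (hf j)).trans (Ideal.height_le_card_of_mem_minimalPrimes_span hs hP)
  exact_mod_cast h

variable {K : Type*} [Field K] {n : ℕ}

local instance finiteHomogeneous (d : ℕ) :
    Module.Finite K (homogeneousSubmodule (Fin n) K d) := by
  rw [← homogeneousSubmodule_one_pow, Module.Finite.iff_fg]
  exact Submodule.FG.pow (homogeneousSubmodule_one_eq_span_X (σ := Fin n) (R := K) ▸
    Submodule.fg_span (Set.finite_range _)) d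

lemma finrank_homogeneous_one :
    finrank K (homogeneousSubmodule (Fin n) K 1) = n := by
  rw [homogeneousSubmodule_one_eq_span_X, finrank_span_eq_card]
  · simp
  · exact linearIndependent_X (Fin n) K

lemma mul_mem_homogeneous {a b : ℕ} {x y : MvPolynomial (Fin n) K}
    (hx : x ∈ homogeneousSubmodule (Fin n) K a) (hy : y ∈ homogeneousSubmodule (Fin n) K b) :
    x * y ∈ homogeneousSubmodule (Fin n) K (a + b) :=
  homogeneousSubmodule_mul a b (Submodule.mul_mem_mul hx hy)

/-- In degree two the quotient has dimension at most the binomial coefficient of its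
dimension in degree one. -/
lemma degree_two_bound {f : Fin n → MvPolynomial (Fin n) K}
    (hreg : RingTheory.Sequence.IsWeaklyRegular (MvPolynomial (Fin n) K) (List.ofFn f))
    (hf : ∀ i, f i ∈ homogeneousSubmodule (Fin n) K 2)
    {L Q : Submodule K (MvPolynomial (Fin n) K)}
    (hL : L ≤ homogeneousSubmodule (Fin n) K 1) (hQ : Q ≤ homogeneousSubmodule (Fin n) K 2)
    (hLQ : ∀ v ∈ homogeneousSubmodule (Fin n) K 1, ∀ x ∈ L, v * x ∈ Q)
    (hfQ : ∀ i, f i ∈ Q) :
    finrank K (homogeneousSubmodule (Fin n) K 2) ≤ finrank K Q +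
      (finrank K (homogeneousSubmodule (Fin n) K 1) - finrank K L).choose 2 := by
  classical
  obtain ⟨C, hC⟩ := exists_isCompl L
  set W := C ⊓ homogeneousSubmodule (Fin n) K 1
  have hdisj : Disjoint L W := hC.disjoint.mono_right inf_le_left
  have hsup : L ⊔ W = homogeneousSubmodule (Fin n) K 1 := by
    rw [← sup_inf_assoc_of_le C hL, hC.sup_eq_top, top_inf_eq]
  set m := finrank K W
  haveI : FiniteDimensional K L := Submodule.finiteDimensional_of_le hL
  have hWle : W ≤ homogeneousSubmodule (Fin n) K 1 := hsup ▸ le_sup_right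
  haveI : FiniteDimensional K W := Submodule.finiteDimensional_of_le hWle
  have hm : finrank K L + m = finrank K (homogeneousSubmodule (Fin n) K 1) := by
    have h := Submodule.finrank_sup_add_finrank_inf_eq L W
    rw [hdisj.eq_bot, finrank_bot, add_zero, hsup] at h
    exact h.symm
  let b := finBasis K W
  let w : Fin m → MvPolynomial (Fin n) K := fun i => (b i : MvPolynomial (Fin n) K)
  let φ : Sym2 (Fin m) → MvPolynomial (Fin n) K :=
    Sym2.lift ⟨fun i j => w i * w j, fun i j => mul_comm _ _⟩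
  let P := Submodule.span K (Set.range φ)
  have hP2 : P ≤ homogeneousSubmodule (Fin n) K 2 := by
    refine Submodule.span_le.2 ?_
    rintro _ ⟨p, rfl⟩
    induction p using Sym2.ind with
    | h i j => exact mul_mem_homogeneous (hWle (b i).2) (hWle (b j).2)
  haveI : FiniteDimensional K P := Submodule.finiteDimensional_of_le hP2
  have hPcard : finrank K P ≤ (m + 1).choose 2 := by
    refine (finrank_range_le_card φ).trans ?_
    simp [Sym2.card]
  have hW : W = Submodule.span K (Set.range w) := by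
    have h := b.span_eq
    apply_fun Submodule.map W.subtype at h
    rw [Submodule.map_span, ← Set.range_comp, Submodule.map_subtype_top] at h
    exact h.symm
  have hmul : L * homogeneousSubmodule (Fin n) K 1 ≤ Q :=
    Submodule.mul_le.2 fun x hx v hv => mul_comm x v ▸ hLQ v hv x hx
  have hcover : homogeneousSubmodule (Fin n) K 2 ≤ L * homogeneousSubmodule (Fin n) K 1 ⊔ P := by
    rw [← homogeneousSubmodule_one_pow (σ := Fin n) (R := K) (n := 2), pow_two]
    conv_lhs => rw [← hsup, Submodule.sup_mul, Submodule.mul_sup W L W]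
    refine sup_le ?_ (sup_le ?_ ?_)
    · rw [hsup]; exact le_sup_left
    · refine le_trans ?_ le_sup_left
      rw [mul_comm W L]
      exact mul_le_mul_right hWle L
    · refine le_trans ?_ le_sup_right
      rw [hW, Submodule.span_mul_span]
      refine Submodule.span_le.2 ?_
      rintro _ ⟨_, ⟨i, rfl⟩, _, ⟨j, rfl⟩, rfl⟩
      exact Submodule.subset_span ⟨s(i, j), rfl⟩
  have hdec : ∀ i, ∃ p ∈ P, ∃ l ∈ L * homogeneousSubmodule (Fin n) K 1, l + p = f i := by
    intro i
    obtain ⟨l, hl, p, hp, h⟩ := Submodule.mem_sup.1 (hcover (hf i))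
    exact ⟨p, hp, l, hl, h⟩
  choose p hp l hl hlp using hdec
  let F := Submodule.span K (Set.range p)
  haveI : FiniteDimensional K F := FiniteDimensional.span_of_finite K (Set.finite_range p)
  have hFP : F ≤ P ⊓ Q := by
    refine Submodule.span_le.2 ?_
    rintro _ ⟨i, rfl⟩
    refine ⟨hp i, ?_⟩
    have : p i = f i - l i := by rw [← hlp i]; ring
    rw [this]
    exact Q.sub_mem (hfQ i) (hmul (hl i))
  have hmF : m ≤ finrank K F := by
    let bL := finBasis K L
    let bF := finBasis K F
    let s : Set (MvPolynomial (Fin n) K) :=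
      (Set.range fun i => (bL i : MvPolynomial (Fin n) K)) ∪
        (Set.range fun i => (bF i : MvPolynomial (Fin n) K))
    have hs : s.Finite := (Set.finite_range _).union (Set.finite_range _)
    have hLs : ∀ x ∈ L, x ∈ Ideal.span s := by
      intro x hx
      have := congrArg (Subtype.val) (bL.sum_repr ⟨x, hx⟩)
      simp only [AddSubmonoidClass.coe_finset_sum, SetLike.val_smul] at this
      rw [← this]
      refine Ideal.sum_mem _ fun i _ => ?_
      rw [Algebra.smul_def]
      exact Ideal.mul_mem_left _ _ (Ideal.subset_span (Or.inl ⟨i, rfl⟩))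
    have hFs : ∀ x ∈ F, x ∈ Ideal.span s := by
      intro x hx
      have := congrArg (Subtype.val) (bF.sum_repr ⟨x, hx⟩)
      simp only [AddSubmonoidClass.coe_finset_sum, SetLike.val_smul] at this
      rw [← this]
      refine Ideal.sum_mem _ fun i _ => ?_
      rw [Algebra.smul_def]
      exact Ideal.mul_mem_left _ _ (Ideal.subset_span (Or.inr ⟨i, rfl⟩))
    have hfs : ∀ i, f i ∈ Ideal.span s := by
      intro i
      rw [← hlp i]
      refine Ideal.add_mem _ ?_ (hFs _ (Submodule.subset_span ⟨i, rfl⟩))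
      refine Submodule.mul_induction_on (hl i) (fun x hx y _ => ?_) fun x y hx hy => ?_
      · exact Ideal.mul_mem_right _ _ (hLs x hx)
      · exact Ideal.add_mem _ hx hy
    have hne : Ideal.span s ≠ ⊤ := by
      have hzero : ∀ d ≠ 0, ∀ x ∈ homogeneousSubmodule (Fin n) K d, constantCoeff x = 0 := by
        intro d hd x hx
        exact IsHomogeneous.coeff_eq_zero hx (by simpa using hd.symm)
      have : Ideal.span s ≤ RingHom.ker (constantCoeff (σ := Fin n) (R := K)) := by
        refine Ideal.span_le.2 ?_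
        rintro _ (⟨i, rfl⟩ | ⟨i, rfl⟩)
        · exact hzero 1 one_ne_zero _ (hL (bL i).2)
        · exact hzero 2 two_ne_zero _ (hP2 ((hFP (bF i).2).1))
      intro htop
      have := this (htop ▸ Submodule.mem_top : (1 : MvPolynomial (Fin n) K) ∈ Ideal.span s)
      simp at this
    have := le_card_of_mem_span hreg s hs hne hfs
    have h1 : s.ncard ≤ finrank K L + finrank K F := by
      refine (Set.ncard_union_le _ _).trans (add_le_add ?_ ?_) <;>
      · rw [← Set.image_univ]
        refine (Set.ncard_image_le Set.finite_univ).trans ?_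
        simp
    rw [finrank_homogeneous_one] at hm
    omega
  haveI : FiniteDimensional K Q := Submodule.finiteDimensional_of_le hQ
  have h1 := Submodule.finrank_sup_add_finrank_inf_eq P Q
  have h2 : finrank K (homogeneousSubmodule (Fin n) K 2) ≤ finrank K ↑(P ⊔ Q) :=
    Submodule.finrank_mono (hcover.trans (sup_le (hmul.trans le_sup_right) le_sup_left))
  have h3 : finrank K F ≤ finrank K ↑(P ⊓ Q) := Submodule.finrank_mono hFP
  rw [show finrank K (homogeneousSubmodule (Fin n) K 1) - finrank K L = m by omega]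
  have h4 : (m + 1).choose 2 = m + m.choose 2 := by simp [Nat.choose_succ_succ]
  omega

/-- Adding the multiples of a nonzero form. -/
lemma finrank_sup_map_add {z : MvPolynomial (Fin n) K} (hz : z ≠ 0) {d : ℕ}
    (hz1 : z ∈ homogeneousSubmodule (Fin n) K 1)
    {J : Submodule K (MvPolynomial (Fin n) K)} (hJ : J ≤ homogeneousSubmodule (Fin n) K (d + 1)) :
    finrank K ↑(J ⊔ (homogeneousSubmodule (Fin n) K d).map (LinearMap.mulLeft K z)) +
      finrank K ↑(homogeneousSubmodule (Fin n) K d ⊓ J.comap (LinearMap.mulLeft K z)) =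
      finrank K J + finrank K (homogeneousSubmodule (Fin n) K d) := by
  have hinj : Function.Injective (LinearMap.mulLeft K z) := fun x y h => mul_left_cancel₀ hz h
  haveI : FiniteDimensional K J := Submodule.finiteDimensional_of_le hJ
  have hmap : (homogeneousSubmodule (Fin n) K d).map (LinearMap.mulLeft K z) ≤
      homogeneousSubmodule (Fin n) K (d + 1) := by
    rintro _ ⟨x, hx, rfl⟩
    rw [add_comm]
    exact mul_mem_homogeneous hz1 hx
  haveI := Submodule.finiteDimensional_of_le hmap
  have hinf : (homogeneousSubmodule (Fin n) K d ⊓ J.comap (LinearMap.mulLeft K z)).map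
      (LinearMap.mulLeft K z) =
      J ⊓ (homogeneousSubmodule (Fin n) K d).map (LinearMap.mulLeft K z) := by
    ext x
    constructor
    · rintro ⟨y, ⟨hy, hyJ⟩, rfl⟩
      exact ⟨hyJ, y, hy, rfl⟩
    · rintro ⟨hyJ, y, hy, rfl⟩
      exact ⟨y, ⟨hy, hyJ⟩, rfl⟩
  have e1 := (Submodule.equivMapOfInjective _ hinj (homogeneousSubmodule (Fin n) K d)).finrank_eq
  have e2 := (Submodule.equivMapOfInjective _ hinj
    (homogeneousSubmodule (Fin n) K d ⊓ J.comap (LinearMap.mulLeft K z))).finrank_eq
  rw [e1, e2, hinf]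
  exact Submodule.finrank_sup_add_finrank_inf_eq J _

lemma drop_core {a b r : ℝ} (hb : 0 ≤ b) (hba : b ≤ a) (ha : 1 ≤ a) (hr : 0 ≤ r)
    (hab : a ^ 2 = b ^ 2 + 2 * r) (hr2 : r * (r - 1) ≤ a ^ 2) (hd : a - b ≤ 2) :
    3 * r * (r - 1) ≤ a ^ 3 - b ^ 3 + 6 * (a - b) := by
  obtain ⟨δ, rfl⟩ : ∃ δ, b = a - δ := ⟨a - b, by ring⟩
  have hδ0 : 0 ≤ δ := by linarith
  have hδ2 : δ ≤ 2 := by linarith
  have hrd : r = δ * a - δ ^ 2 / 2 := by nlinarith
  have key : 0 ≤ 3 * a ^ 2 + 3 * a + 6 - 3 * a * δ - 3 / 2 * δ + δ ^ 2 -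
      3 / 2 * r * (2 * a - δ) := by
    have h1 : r ≤ a * δ := by nlinarith [sq_nonneg δ]
    have hs : a * (r - a) ≤ a / 2 + 1 / 8 := by
      nlinarith [sq_nonneg (r - a - 1 / 2), sq_nonneg (r - 1 / 2), hr2, mul_nonneg hr (zero_le_one.trans ha)]
    have hrda : r ^ 2 ≤ a * δ * r := by nlinarith
    nlinarith [sq_nonneg (r - a), mul_le_mul_of_nonneg_left hδ2 hδ0]
  have : a ^ 3 - (a - δ) ^ 3 + 6 * (a - (a - δ)) - 3 * r * (r - 1) =
      δ * (3 * a ^ 2 + 3 * a + 6 - 3 * a * δ - 3 / 2 * δ + δ ^ 2 -
        3 / 2 * r * (2 * a - δ)) := by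
    rw [hrd]; ring
  nlinarith [mul_nonneg hδ0 key]

lemma sub_le_two {a c s : ℝ} (h8 : 8 ≤ a ^ 2) (hc : 0 ≤ c) (hs : 0 ≤ s)
    (hac : a ^ 2 = c ^ 2 + 2 * s) (hs2 : s * (s - 1) ≤ a ^ 2) : a - c ≤ 2 := by
  by_contra hlt
  push Not at hlt
  have hsl : 2 * a - 2 ≤ s := by nlinarith
  nlinarith [mul_le_mul hsl (by linarith : 2 * a - 3 ≤ s - 1) (by nlinarith) hs]

lemma drop_large {a b r : ℝ} (hb0 : 0 ≤ b) (ha1 : 1 ≤ a) (h8 : 8 ≤ a ^ 2) (hr : 1 ≤ r)
    (hab : a ^ 2 = b ^ 2 + 2 * r) (hle : a ^ 2 < r * (r - 1)) :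
    3 * a ^ 2 ≤ a ^ 3 - b ^ 3 + 6 * (a - b) := by
  set t := √(1 + 4 * a ^ 2)
  have ht : t ^ 2 = 1 + 4 * a ^ 2 := Real.sq_sqrt (by positivity)
  have ht0 : 0 ≤ t := Real.sqrt_nonneg _
  set s := (1 + t) / 2 with hsdef
  have hs : s * (s - 1) = a ^ 2 := by
    rw [hsdef]
    linear_combination (1 / 4 : ℝ) * ht
  have hs1 : 1 ≤ s := by
    have : 1 ≤ t := Real.one_le_sqrt.2 (by linarith [sq_nonneg a])
    rw [hsdef]
    linarith
  have hsr : s ≤ r := by
    by_contra hc
    push Not at hc
    have := mul_le_mul hc.le (by linarith : r - 1 ≤ s - 1) (by linarith) (by linarith)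
    linarith
  set c := √(a ^ 2 - 2 * s)
  have hc2 : c ^ 2 = a ^ 2 - 2 * s := Real.sq_sqrt (by linarith [sq_nonneg b])
  have hc0 : 0 ≤ c := Real.sqrt_nonneg _
  have ha0 : 0 ≤ a := zero_le_one.trans ha1
  have hca : c ≤ a := (sq_le_sq₀ hc0 ha0).1 (by linarith)
  have hac : a ^ 2 = c ^ 2 + 2 * s := by linarith
  have hd : a - c ≤ 2 := sub_le_two h8 hc0 (by linarith) hac hs.le
  have h1 := drop_core hc0 hca ha1 (by linarith) hac hs.le hd
  have hbc : b ≤ c := (sq_le_sq₀ hb0 hc0).1 (by linarith)
  have hp := pow_le_pow_left₀ hb0 hbc 3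
  have : 3 * s * (s - 1) = 3 * a ^ 2 := by rw [mul_assoc, hs]
  linarith

/-- The numerical induction step. -/
lemma step_bound {h r e : ℕ} (hr1 : 1 ≤ r) (hrh : r ≤ h) (he : e ≤ h) (he2 : e ≤ r.choose 2) :
    √(2 * ((h - r : ℕ) : ℝ)) * (((h - r : ℕ) : ℝ) + 3) + 3 * e ≤ √(2 * (h : ℝ)) * ((h : ℝ) + 3) := by
  have hh : (1 : ℝ) ≤ h := by exact_mod_cast hr1.trans hrh
  have hc : ((h - r : ℕ) : ℝ) = (h : ℝ) - r := by push_cast [hrh]; ring
  have hrR : (1 : ℝ) ≤ r := by exact_mod_cast hr1
  have hrhR : (r : ℝ) ≤ h := by exact_mod_cast hrh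
  have he' : (e : ℝ) ≤ r * (r - 1) / 2 := by
    rw [← Nat.cast_choose_two]; exact_mod_cast he2
  have he'' : (e : ℝ) ≤ h := by exact_mod_cast he
  set a := √(2 * (h : ℝ))
  set b := √(2 * ((h - r : ℕ) : ℝ))
  have ha2 : a ^ 2 = 2 * h := Real.sq_sqrt (by positivity)
  have hb2 : b ^ 2 = 2 * ((h : ℝ) - r) := by rw [← hc]; exact Real.sq_sqrt (by positivity)
  have hb0 : 0 ≤ b := Real.sqrt_nonneg _
  have ha1 : 1 ≤ a := by nlinarith [Real.sqrt_nonneg (2 * (h : ℝ))]
  suffices hs : 6 * (e : ℝ) ≤ a ^ 3 - b ^ 3 + 6 * (a - b) by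
    rw [hc]
    nlinarith
  by_cases hle : (r : ℝ) * (r - 1) ≤ a ^ 2
  · rcases Nat.lt_or_ge 3 h with h3 | h3
    · have := drop_core hb0 (by nlinarith) ha1 (by positivity) (by nlinarith) hle
        (sub_le_two (by
          have : (4 : ℝ) ≤ h := by exact_mod_cast h3
          linarith) hb0 (by positivity) (by linarith) hle)
      nlinarith
    · have hcases : e = 0 ∨ (e ≤ 3 ∧ 2 ≤ r) := by
        rcases Nat.lt_or_ge r 2 with h2 | h2
        · left; interval_cases r; simpa using he2
        · right; omega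
      have hba : b ≤ a := by nlinarith
      rcases hcases with rfl | ⟨-, hr2⟩
      · push_cast; nlinarith [pow_le_pow_left₀ hb0 hba 3]
      · have hb32 : b ≤ 3 / 2 := by
          have : (h : ℝ) ≤ 3 := by exact_mod_cast h3
          have : (2 : ℝ) ≤ r := by exact_mod_cast hr2
          nlinarith [sq_nonneg (b - 3 / 2)]
        have ha2' : 2 ≤ a := by
          have : (2 : ℝ) ≤ h := by exact_mod_cast hr2.trans hrh
          nlinarith
        rcases Nat.lt_or_ge r 3 with h2 | h2
        · have : (e : ℝ) ≤ 1 := by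
            have : r = 2 := by omega
            subst this; norm_num at he' ⊢; linarith
          nlinarith [pow_le_pow_left₀ hb0 hb32 3, pow_le_pow_left₀ (by norm_num) ha2' 3]
        · have hh3 : h = 3 ∧ r = 3 := by omega
          obtain ⟨rfl, rfl⟩ := hh3
          have hb : b = 0 := by norm_num at hb2; exact hb2
          have : (12 : ℝ) / 5 ≤ a := by push_cast at ha2; nlinarith
          push_cast at he''
          rw [hb]
          nlinarith [pow_le_pow_left₀ (by norm_num) this 3]
  · push Not at hle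
    have h4 : 3 < h := by
      by_contra h4
      push Not at h4
      have : (r : ℝ) - 1 ≤ 2 := by
        have : (r : ℝ) ≤ 3 := by exact_mod_cast hrh.trans h4
        linarith
      nlinarith
    have h8 : 8 ≤ a ^ 2 := by
      have : (4 : ℝ) ≤ h := by exact_mod_cast h4
      linarith
    linarith [drop_large hb0 ha1 h8 hrR (by linarith) hle]

/-- The bound for degree-two and degree-three pieces. -/
lemma degree_three_bound {f : Fin n → MvPolynomial (Fin n) K}
    (hreg : RingTheory.Sequence.IsWeaklyRegular (MvPolynomial (Fin n) K) (List.ofFn f))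
    (hf : ∀ i, f i ∈ homogeneousSubmodule (Fin n) K 2) (h : ℕ) :
    ∀ A B : Submodule K (MvPolynomial (Fin n) K),
      A ≤ homogeneousSubmodule (Fin n) K 2 → B ≤ homogeneousSubmodule (Fin n) K 3 →
      (∀ i, f i ∈ A) → (∀ v ∈ homogeneousSubmodule (Fin n) K 1, ∀ x ∈ A, v * x ∈ B) →
      finrank K (homogeneousSubmodule (Fin n) K 2) - finrank K A = h →
      3 * ((finrank K (homogeneousSubmodule (Fin n) K 3) - finrank K B : ℕ) : ℝ) ≤
        √(2 * (h : ℝ)) * ((h : ℝ) + 3) := by
  induction h using Nat.strong_induction_on with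
  | _ h ih =>
  intro A B hA hB hfA hAB hh
  by_cases hall : ∀ z ∈ homogeneousSubmodule (Fin n) K 1,
      ∀ x ∈ homogeneousSubmodule (Fin n) K 1, z * x ∈ A
  · have h2 : homogeneousSubmodule (Fin n) K 2 ≤ A := by
      rw [← homogeneousSubmodule_one_pow (σ := Fin n) (R := K) (n := 2), pow_two]
      exact Submodule.mul_le.2 hall
    have h3 : homogeneousSubmodule (Fin n) K 3 ≤ B := by
      rw [← homogeneousSubmodule_one_pow (σ := Fin n) (R := K) (n := 3), pow_succ', homogeneousSubmodule_one_pow (σ := Fin n) (R := K) (n := 2)]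
      exact Submodule.mul_le.2 fun v hv x hx => hAB v hv x (h2 hx)
    rw [le_antisymm hB h3, Nat.sub_self]
    push_cast
    rw [mul_zero]
    positivity
  · push Not at hall
    obtain ⟨z, hz, x, hx, hzx⟩ := hall
    have hz0 : z ≠ 0 := fun e => hzx (by simp [e])
    set M := LinearMap.mulLeft K z
    set L := homogeneousSubmodule (Fin n) K 1 ⊓ A.comap M
    set Q := homogeneousSubmodule (Fin n) K 2 ⊓ B.comap M
    set A' := A ⊔ (homogeneousSubmodule (Fin n) K 1).map M
    set B' := B ⊔ (homogeneousSubmodule (Fin n) K 2).map M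
    have hA' : A' ≤ homogeneousSubmodule (Fin n) K 2 := by
      refine sup_le hA ?_
      rintro _ ⟨y, hy, rfl⟩
      exact mul_mem_homogeneous hz hy
    have hB' : B' ≤ homogeneousSubmodule (Fin n) K 3 := by
      refine sup_le hB ?_
      rintro _ ⟨y, hy, rfl⟩
      exact mul_mem_homogeneous hz hy
    haveI : FiniteDimensional K A := Submodule.finiteDimensional_of_le hA
    haveI : FiniteDimensional K A' := Submodule.finiteDimensional_of_le hA'
    haveI : FiniteDimensional K Q :=
      Submodule.finiteDimensional_of_le (inf_le_left : Q ≤ homogeneousSubmodule (Fin n) K 2)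
    have hclosed : ∀ v ∈ homogeneousSubmodule (Fin n) K 1, ∀ y ∈ A', v * y ∈ B' := by
      intro v hv y hy
      obtain ⟨a, ha, _, ⟨w, hw, rfl⟩, rfl⟩ := Submodule.mem_sup.1 hy
      rw [mul_add]
      refine Submodule.add_mem_sup (hAB v hv a ha) ⟨v * w, mul_mem_homogeneous hv hw, ?_⟩
      simp [M, mul_left_comm]
    have e2 : finrank K A' + finrank K L =
        finrank K A + finrank K (homogeneousSubmodule (Fin n) K 1) :=
      finrank_sup_map_add (d := 1) hz0 hz hA
    have e3 : finrank K B' + finrank K Q =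
        finrank K B + finrank K (homogeneousSubmodule (Fin n) K 2) :=
      finrank_sup_map_add (d := 2) hz0 hz hB
    have hbase : finrank K (homogeneousSubmodule (Fin n) K 2) ≤ finrank K Q +
        (finrank K (homogeneousSubmodule (Fin n) K 1) - finrank K L).choose 2 := by
      refine degree_two_bound hreg hf inf_le_left inf_le_left (fun v hv y hy => ?_) fun i => ?_
      · refine ⟨mul_mem_homogeneous hv hy.1, ?_⟩
        show z * (v * y) ∈ B
        rw [mul_left_comm]
        exact hAB v hv _ hy.2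
      · exact ⟨hA (hfA i), hAB z hz _ (hfA i)⟩
    have hQA : finrank K A ≤ finrank K Q :=
      Submodule.finrank_mono fun y hy => ⟨hA hy, hAB z hz y hy⟩
    have hLlt : finrank K L < finrank K (homogeneousSubmodule (Fin n) K 1) :=
      Submodule.finrank_lt_finrank_of_lt (lt_of_le_of_ne inf_le_left fun e =>
        hzx ((e.symm ▸ hx : x ∈ L)).2)
    have hA'le := Submodule.finrank_mono hA'
    have hB'le := Submodule.finrank_mono hB'
    have hQle : finrank K Q ≤ finrank K (homogeneousSubmodule (Fin n) K 2) :=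
      Submodule.finrank_mono inf_le_left
    set r := finrank K (homogeneousSubmodule (Fin n) K 1) - finrank K L
    set e := finrank K (homogeneousSubmodule (Fin n) K 2) - finrank K Q
    have hrh : r ≤ h := by omega
    have heq : finrank K (homogeneousSubmodule (Fin n) K 2) - finrank K A' = h - r := by omega
    have hrec := ih (h - r) (by omega) A' B' hA' hB' (fun i => le_sup_left (a := A) (hfA i))
      hclosed heq
    have hdim : finrank K (homogeneousSubmodule (Fin n) K 3) - finrank K B =
        (finrank K (homogeneousSubmodule (Fin n) K 3) - finrank K B') + e := by omega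
    have hs := step_bound (h := h) (r := r) (e := e) (by omega) hrh (by omega) (by omega)
    rw [hdim]
    push_cast
    linarith

end Vale.Agent.P200
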